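import Mathlib

/-! Characteristic function of a small centred bounded variable, and of a product of blocks. -/

namespace Vale.Agent.P153.Gau

open MeasureTheory Complex Set

/-- telescoping for products of complex numbers of modulus at most one -/
theorem norm_prod_sub_prod_le {ι : Type*} [DecidableEq ι] (s : Finset ι) (a c : ι → ℂ)
    (ha : ∀ i ∈ s, ‖a i‖ ≤ 1) (hc : ∀ i ∈ s, ‖c i‖ ≤ 1) :
    ‖∏ i ∈ s, a i - ∏ i ∈ s, c i‖ ≤ ∑ i ∈ s, ‖a i - c i‖ := by
  induction s using Finset.induction_on with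
  | empty => simp
  | insert i s hi ih =>
    rw [Finset.prod_insert hi, Finset.prod_insert hi, Finset.sum_insert hi]
    have h1 : a i * ∏ j ∈ s, a j - c i * ∏ j ∈ s, c j =
        (a i - c i) * ∏ j ∈ s, a j + c i * (∏ j ∈ s, a j - ∏ j ∈ s, c j) := by ring
    rw [h1]
    refine (norm_add_le _ _).trans ?_
    rw [norm_mul, norm_mul]
    have h2 : ‖∏ j ∈ s, a j‖ ≤ 1 := by
      rw [norm_prod]
      exact Finset.prod_le_one (fun _ _ => norm_nonneg _)
        fun j hj => ha j (Finset.mem_insert_of_mem hj)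
    have h3 := ih (fun j hj => ha j (Finset.mem_insert_of_mem hj))
      fun j hj => hc j (Finset.mem_insert_of_mem hj)
    have h4 := hc i (Finset.mem_insert_self i s)
    have h5 := norm_nonneg (a i - c i)
    have h6 := norm_nonneg (∏ j ∈ s, a j - ∏ j ∈ s, c j)
    nlinarith

theorem norm_exp_I (x : ℝ) : ‖exp (I * x)‖ = 1 := by
  rw [mul_comm]; exact norm_exp_ofReal_mul_I x

theorem hasDerivAt_expI (x : ℝ) : HasDerivAt (fun t : ℝ => exp (I * t)) (I * exp (I * x)) x := by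
  have h := ((hasDerivAt_id (x : ℂ)).const_mul I).cexp.comp_ofReal
  simpa [mul_comm] using h

theorem taylor_one (x : ℝ) : ‖exp (I * x) - 1‖ ≤ |x| := by
  simpa using Real.norm_exp_I_mul_ofReal_sub_one_le (x := x)

theorem taylor_two_nonneg {x : ℝ} (hx : 0 ≤ x) : ‖exp (I * x) - 1 - I * x‖ ≤ x ^ 2 / 2 := by
  have hd : ∀ t : ℝ, HasDerivAt (fun t : ℝ => exp (I * t) - 1 - I * t) (I * (exp (I * t) - 1)) t := by
    intro t
    have h1 : HasDerivAt (fun t : ℝ => exp (I * t) - 1 - I * t) (I * exp (I * t) - I * 1) t :=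
      ((hasDerivAt_expI t).sub_const 1).sub ((hasDerivAt_id (t : ℂ)).const_mul I).comp_ofReal
    exact h1.congr_deriv (by ring)
  have hB : ∀ t : ℝ, HasDerivAt (fun t : ℝ => t ^ 2 / 2) t t := fun t =>
    ((hasDerivAt_pow 2 t).div_const 2).congr_deriv (by norm_num)
  refine image_norm_le_of_norm_deriv_right_le_deriv_boundary (a := 0) (b := x)
    (f' := fun t : ℝ => I * (exp (I * t) - 1))
    (fun t _ => (hd t).continuousAt.continuousWithinAt) (fun t _ => (hd t).hasDerivWithinAt)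
    (B := fun t : ℝ => t ^ 2 / 2) (B' := fun t => t) (by simp) hB ?_ ⟨hx, le_refl x⟩
  intro t ht
  rw [norm_mul, norm_I, one_mul]
  refine (taylor_one t).trans (le_of_eq (abs_of_nonneg ht.1))

theorem taylor_three_nonneg {x : ℝ} (hx : 0 ≤ x) :
    ‖exp (I * x) - 1 - I * x + x ^ 2 / 2‖ ≤ x ^ 3 / 6 := by
  have hd : ∀ t : ℝ, HasDerivAt (fun t : ℝ => exp (I * t) - 1 - I * t + (t : ℂ) ^ 2 / 2)
      (I * (exp (I * t) - 1 - I * t)) t := by
    intro t
    have h1 : HasDerivAt (fun t : ℝ => exp (I * t) - 1 - I * t + (t : ℂ) ^ 2 / 2)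
        (I * exp (I * t) - I * 1 + (2 : ℕ) * (t : ℂ) ^ (2 - 1) / 2) t :=
      (((hasDerivAt_expI t).sub_const 1).sub
        ((hasDerivAt_id (t : ℂ)).const_mul I).comp_ofReal).add
        ((hasDerivAt_pow 2 (t : ℂ)).div_const 2).comp_ofReal
    refine h1.congr_deriv ?_
    have h2 : I * I = -1 := I_mul_I
    push_cast
    linear_combination (t : ℂ) * h2
  have hB : ∀ t : ℝ, HasDerivAt (fun t : ℝ => t ^ 3 / 6) (t ^ 2 / 2) t := fun t =>
    ((hasDerivAt_pow 3 t).div_const 6).congr_deriv (by norm_num; ring)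
  refine image_norm_le_of_norm_deriv_right_le_deriv_boundary (a := 0) (b := x)
    (f' := fun t : ℝ => I * (exp (I * t) - 1 - I * t))
    (fun t _ => (hd t).continuousAt.continuousWithinAt) (fun t _ => (hd t).hasDerivWithinAt)
    (B := fun t : ℝ => t ^ 3 / 6) (B' := fun t => t ^ 2 / 2) (by simp) hB ?_ ⟨hx, le_refl x⟩
  intro t ht
  rw [norm_mul, norm_I, one_mul]
  exact taylor_two_nonneg ht.1

/-- `|e^{ix} - 1 - ix + x²/2| ≤ |x|³/6` -/
theorem taylor_three (x : ℝ) : ‖exp (I * x) - 1 - I * x + x ^ 2 / 2‖ ≤ |x| ^ 3 / 6 := by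
  rcases le_total 0 x with hx | hx
  · rw [abs_of_nonneg hx]; exact taylor_three_nonneg hx
  · rw [abs_of_nonpos hx]
    have h := taylor_three_nonneg (neg_nonneg.2 hx)
    rw [← norm_conj] at h
    convert h using 2
    simp only [map_add, map_sub, map_mul, map_one, map_div₀, map_pow, conj_I, conj_ofReal,
      ← exp_conj, ofReal_neg, map_neg, map_ofNat]
    ring_nf

/-- `|e^{-w/2} - (1 - w/2)| ≤ w²/8` for `w ≥ 0` -/
theorem exp_neg_half {w : ℝ} (hw : 0 ≤ w) : |Real.exp (-(w / 2)) - (1 - w / 2)| ≤ w ^ 2 / 8 := by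
  have h1 := Real.add_one_le_exp (-(w / 2))
  rw [abs_of_nonneg (by linarith)]
  have h2 : Real.exp (-(w / 2)) ≤ 1 - w / 2 + (w / 2) ^ 2 / 2 := by
    have key : ∀ t : ℝ, 0 ≤ t → Real.exp (-t) ≤ 1 - t + t ^ 2 / 2 := by
      intro t ht
      have := Real.quadratic_le_exp_of_nonneg ht
      rw [Real.exp_neg]
      have hpos : 0 < 1 + t + t ^ 2 / 2 := by positivity
      have h3 : (Real.exp t)⁻¹ ≤ (1 + t + t ^ 2 / 2)⁻¹ := inv_anti₀ hpos this
      refine h3.trans ?_
      rw [inv_le_iff_one_le_mul₀ hpos]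
      nlinarith [sq_nonneg (t ^ 2)]
    exact key _ (by linarith)
  nlinarith

variable {Ω : Type*} [MeasurableSpace Ω] {μ : Measure Ω}

/-- characteristic function of a small centred bounded variable -/
theorem block_taylor [IsProbabilityMeasure μ] {S : Ω → ℝ} (hS : AEStronglyMeasurable S μ) {M : ℝ}
    (hM : ∀ᵐ ω ∂μ, |S ω| ≤ M) (h0 : ∫ ω, S ω ∂μ = 0) :
    ‖∫ ω, exp (I * S ω) ∂μ - Real.exp (-((∫ ω, S ω ^ 2 ∂μ) / 2))‖ ≤
      M * (∫ ω, S ω ^ 2 ∂μ) / 6 + (∫ ω, S ω ^ 2 ∂μ) ^ 2 / 8 := by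
  have iS : Integrable S μ := Integrable.of_bound hS M (by simpa using hM)
  have iS2 : Integrable (fun ω => S ω ^ 2) μ := by
    refine Integrable.of_bound (hS.pow 2) (M ^ 2) ?_
    filter_upwards [hM] with ω h
    rw [norm_pow, Real.norm_eq_abs]
    exact pow_le_pow_left₀ (abs_nonneg _) h 2
  have iE : Integrable (fun ω => exp (I * S ω)) μ := by
    refine Integrable.of_bound (C := 1) ?_ (Filter.Eventually.of_forall fun ω =>
      (norm_exp_I (S ω)).le)
    exact (continuous_exp.comp_aestronglyMeasurable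
      (aestronglyMeasurable_const.mul (continuous_ofReal.comp_aestronglyMeasurable hS)))
  set w := ∫ ω, S ω ^ 2 ∂μ with hw
  have hw0 : 0 ≤ w := integral_nonneg fun ω => sq_nonneg _
  have e1 : ∫ ω, exp (I * S ω) ∂μ - Real.exp (-(w / 2)) =
      ∫ ω, (exp (I * S ω) - 1 - I * S ω + (S ω : ℂ) ^ 2 / 2) ∂μ -
        ((Real.exp (-(w / 2)) - (1 - w / 2) : ℝ) : ℂ) := by
    have i1 : Integrable (fun ω => I * (S ω : ℂ)) μ := (iS.ofReal).const_mul I
    have i2 : Integrable (fun ω => (S ω : ℂ) ^ 2 / 2) μ := by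
      have := (iS2.ofReal (𝕜 := ℂ)).div_const 2
      refine this.congr (Filter.Eventually.of_forall fun ω => ?_)
      simp
    have j1 : Integrable (fun ω => exp (I * S ω) - 1) μ := iE.sub (integrable_const 1)
    have j2 : Integrable (fun ω => exp (I * S ω) - 1 - I * S ω) μ := j1.sub i1
    rw [integral_add j2 i2, integral_sub j1 i1, integral_sub iE (integrable_const 1),
      integral_const_mul, integral_complex_ofReal, h0]
    have i3 : ∫ ω, (S ω : ℂ) ^ 2 / 2 ∂μ = (w : ℂ) / 2 := by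
      rw [integral_div, hw, ← integral_complex_ofReal]
      simp
    rw [i3]
    simp
    ring
  rw [e1]
  refine (norm_sub_le _ _).trans (add_le_add ?_ ?_)
  · refine (norm_integral_le_integral_norm _).trans ?_
    have h1 : ∀ᵐ ω ∂μ, ‖exp (I * S ω) - 1 - I * S ω + (S ω : ℂ) ^ 2 / 2‖ ≤ M * S ω ^ 2 / 6 := by
      filter_upwards [hM] with ω h
      refine (taylor_three (S ω)).trans ?_
      have h2 : |S ω| ^ 3 = |S ω| * S ω ^ 2 := by rw [pow_succ', sq_abs]
      rw [h2]
      have := mul_le_mul_of_nonneg_right h (sq_nonneg (S ω))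
      linarith
    have h3 : ∫ ω, M * S ω ^ 2 / 6 ∂μ = M * w / 6 := by
      rw [integral_div, integral_const_mul]
    rw [← h3]
    refine integral_mono_of_nonneg (Filter.Eventually.of_forall fun ω => norm_nonneg _) ?_ h1
    exact (iS2.const_mul M).div_const 6
  · rw [norm_real, Real.norm_eq_abs]
    exact exp_neg_half hw0

end Vale.Agent.P153.Gau
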