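import Vale.Agent.P153.Gau.D3

/-! The characteristic function of a weighted row sum, given a decoupling of blocks. -/

namespace Vale.Agent.P153.Gau

open MeasureTheory Complex Set

variable {Ω : Type*} [MeasurableSpace Ω] {μ : Measure Ω}

/-- **Blocks, measure form.** `S j` are the (centred, bounded by `M`) block sums, `W j` their
variances; `N` bounds the error of decoupling the blocks. -/
theorem blocks_charFun [IsProbabilityMeasure μ] {β : Type*} [Fintype β] (S : β → Ω → ℝ)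
    (hS : ∀ j, AEStronglyMeasurable (S j) μ) {M : ℝ} (hM : ∀ j, ∀ᵐ ω ∂μ, |S j ω| ≤ M)
    (h0 : ∀ j, ∫ ω, S j ω ∂μ = 0) {N : ℝ}
    (hN : ‖∫ ω, exp (I * (∑ j, S j ω : ℝ)) ∂μ - ∏ j, ∫ ω, exp (I * S j ω) ∂μ‖ ≤ N)
    {v : ℝ} (hv : 0 ≤ v) :
    ‖∫ ω, exp (I * (∑ j, S j ω : ℝ)) ∂μ - Real.exp (-(v / 2))‖ ≤
      N + ∑ j, (M * (∫ ω, S j ω ^ 2 ∂μ) / 6 + (∫ ω, S j ω ^ 2 ∂μ) ^ 2 / 8) +
        |∑ j, ∫ ω, S j ω ^ 2 ∂μ - v| / 2 := by
  classical
  have hW : ∀ j, 0 ≤ ∫ ω, S j ω ^ 2 ∂μ := fun j => integral_nonneg fun ω => sq_nonneg _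
  have e1 : ‖∏ j, ∫ ω, exp (I * S j ω) ∂μ - ∏ j, (Real.exp (-((∫ ω, S j ω ^ 2 ∂μ) / 2)) : ℂ)‖ ≤
      ∑ j, (M * (∫ ω, S j ω ^ 2 ∂μ) / 6 + (∫ ω, S j ω ^ 2 ∂μ) ^ 2 / 8) := by
    refine (norm_prod_sub_prod_le _ _ _ ?_ ?_).trans
      (Finset.sum_le_sum fun j _ => block_taylor (hS j) (hM j) (h0 j))
    · intro j _
      refine (norm_integral_le_of_norm_le_const (C := 1)
        (Filter.Eventually.of_forall fun ω => (norm_exp_I (S j ω)).le)).trans ?_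
      simp
    · intro j _
      rw [norm_real, Real.norm_eq_abs, abs_of_pos (Real.exp_pos _)]
      exact Real.exp_le_one_iff.2 (by linarith [hW j])
  have e2 : ∏ j, (Real.exp (-((∫ ω, S j ω ^ 2 ∂μ) / 2)) : ℂ) =
      (Real.exp (-((∑ j, ∫ ω, S j ω ^ 2 ∂μ) / 2)) : ℂ) := by
    rw [← ofReal_prod, ← Real.exp_sum, Finset.sum_neg_distrib, Finset.sum_div]
  have e3 : ‖(Real.exp (-((∑ j, ∫ ω, S j ω ^ 2 ∂μ) / 2)) : ℂ) - Real.exp (-(v / 2))‖ ≤
      |∑ j, ∫ ω, S j ω ^ 2 ∂μ - v| / 2 := by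
    rw [← ofReal_sub, norm_real, Real.norm_eq_abs]
    have hw : 0 ≤ ∑ j, ∫ ω, S j ω ^ 2 ∂μ := Finset.sum_nonneg fun j _ => hW j
    set w := ∑ j, ∫ ω, S j ω ^ 2 ∂μ
    have key : ∀ s t : ℝ, 0 ≤ s → s ≤ t →
        |Real.exp (-(s / 2)) - Real.exp (-(t / 2))| ≤ (t - s) / 2 := by
      intro s t hs hst
      have h1 : Real.exp (-(t / 2)) = Real.exp (-(s / 2)) * Real.exp (-((t - s) / 2)) := by
        rw [← Real.exp_add]; congr 1; ring
      have h2 := Real.add_one_le_exp (-((t - s) / 2))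
      have h3 : Real.exp (-(s / 2)) ≤ 1 := Real.exp_le_one_iff.2 (by linarith)
      have h4 : Real.exp (-((t - s) / 2)) ≤ 1 := Real.exp_le_one_iff.2 (by linarith)
      have h5 := Real.exp_pos (-(s / 2))
      rw [h1, abs_of_nonneg (by nlinarith)]
      nlinarith
    rcases le_total w v with h | h
    · rw [abs_sub_comm w v, abs_of_nonneg (sub_nonneg.2 h)]
      exact key w v hw h
    · rw [abs_of_nonneg (sub_nonneg.2 h), abs_sub_comm]
      exact key v w hv h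
  have e4 : ∫ ω, exp (I * (∑ j, S j ω : ℝ)) ∂μ - Real.exp (-(v / 2)) =
      (∫ ω, exp (I * (∑ j, S j ω : ℝ)) ∂μ - ∏ j, ∫ ω, exp (I * S j ω) ∂μ) +
      (∏ j, ∫ ω, exp (I * S j ω) ∂μ - ∏ j, (Real.exp (-((∫ ω, S j ω ^ 2 ∂μ) / 2)) : ℂ)) +
      ((Real.exp (-((∑ j, ∫ ω, S j ω ^ 2 ∂μ) / 2)) : ℂ) - Real.exp (-(v / 2))) := by
    rw [e2]; ring
  rw [e4]
  exact (norm_add_le _ _).trans (add_le_add ((norm_add_le _ _).trans (add_le_add hN e1)) e3)

/-- **Row lemma, measure form.** Sites `i`, block map `b`, weights `g`, variables `r i` bounded by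
`R`, at most `L` sites in a block, `|g i| ≤ γ`. -/
theorem row_charFun [IsProbabilityMeasure μ] {ι β : Type*} [Fintype ι] [Fintype β] [DecidableEq β]
    (b : ι → β) (g : ι → ℝ) (r : ι → Ω → ℝ) (hr : ∀ i, AEStronglyMeasurable (r i) μ) {R γ : ℝ}
    (hR : ∀ i, ∀ᵐ ω ∂μ, |r i ω| ≤ R) (h0 : ∀ i, ∫ ω, r i ω ∂μ = 0) (hg : ∀ i, |g i| ≤ γ) {L : ℕ}
    (hL : ∀ j, (Finset.univ.filter fun i => b i = j).card ≤ L) (hR0 : 0 ≤ R) (hγ0 : 0 ≤ γ) {N : ℝ}
    (hN : ‖∫ ω, exp (I * (∑ i, g i * r i ω : ℝ)) ∂μ -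
      ∏ j, ∫ ω, exp (I * (∑ i with b i = j, g i * r i ω : ℝ)) ∂μ‖ ≤ N)
    {v : ℝ} (hv : 0 ≤ v) :
    ‖∫ ω, exp (I * (∑ i, g i * r i ω : ℝ)) ∂μ - Real.exp (-(v / 2))‖ ≤
      N + ((L * γ * R) / 6 + (L * γ * R) ^ 2 / 8) *
          (∑ j, ∫ ω, (∑ i with b i = j, g i * r i ω) ^ 2 ∂μ) +
        |∑ j, ∫ ω, (∑ i with b i = j, g i * r i ω) ^ 2 ∂μ - v| / 2 := by
  have hsum : ∀ ω, (∑ j, ∑ i with b i = j, g i * r i ω : ℝ) = ∑ i, g i * r i ω := fun ω =>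
    Finset.sum_fiberwise Finset.univ b fun i => g i * r i ω
  have hir : ∀ i, Integrable (r i) μ := fun i =>
    Integrable.of_bound (hr i) R (by simpa using hR i)
  have hmeas : ∀ j, AEStronglyMeasurable (fun ω => ∑ i with b i = j, g i * r i ω) μ := by
    intro j
    have := Finset.aestronglyMeasurable_fun_sum (μ := μ) (f := fun i ω => g i * r i ω)
      (Finset.univ.filter fun i => b i = j) fun i _ => (hr i).const_mul (g i)
    exact this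
  have hbd : ∀ j, ∀ᵐ ω ∂μ, |∑ i with b i = j, g i * r i ω| ≤ L * γ * R := by
    intro j
    have h1 : ∀ᵐ ω ∂μ, ∀ i, |r i ω| ≤ R := ae_all_iff.2 hR
    filter_upwards [h1] with ω h
    refine (Finset.abs_sum_le_sum_abs _ _).trans ?_
    have h2 : ∑ i with b i = j, |g i * r i ω| ≤ ∑ i with b i = j, γ * R :=
      Finset.sum_le_sum fun i _ => by
        rw [abs_mul]
        exact mul_le_mul (hg i) (h i) (abs_nonneg _) hγ0
    refine h2.trans ?_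
    rw [Finset.sum_const, nsmul_eq_mul, mul_assoc]
    exact mul_le_mul_of_nonneg_right (by exact_mod_cast hL j) (mul_nonneg hγ0 hR0)
  have hzero : ∀ j, ∫ ω, ∑ i with b i = j, g i * r i ω ∂μ = 0 := by
    intro j
    rw [integral_finsetSum _ fun i _ => (hir i).const_mul (g i)]
    refine Finset.sum_eq_zero fun i _ => ?_
    rw [integral_const_mul, h0 i, mul_zero]
  have hmain := blocks_charFun (μ := μ) (S := fun j ω => ∑ i with b i = j, g i * r i ω) hmeas hbd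
    hzero (N := N) (by simpa only [hsum] using hN) hv
  simp only [hsum] at hmain
  refine hmain.trans ?_
  have hM0 : 0 ≤ (L * γ * R : ℝ) := by positivity
  have hW : ∀ j, (∫ ω, (∑ i with b i = j, g i * r i ω) ^ 2 ∂μ) ≤ (L * γ * R) ^ 2 := by
    intro j
    have h1 : ∀ᵐ ω ∂μ, (∑ i with b i = j, g i * r i ω) ^ 2 ≤ (L * γ * R : ℝ) ^ 2 := by
      filter_upwards [hbd j] with ω h
      exact sq_le_sq' (by linarith [(abs_le.1 h).1]) (abs_le.1 h).2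
    have h2 := integral_mono_of_nonneg (μ := μ)
      (Filter.Eventually.of_forall fun ω => sq_nonneg (∑ i with b i = j, g i * r i ω))
      (integrable_const ((L * γ * R : ℝ) ^ 2)) h1
    simpa using h2
  have hW0 : ∀ j, 0 ≤ ∫ ω, (∑ i with b i = j, g i * r i ω) ^ 2 ∂μ := fun j =>
    integral_nonneg fun ω => sq_nonneg _
  have hs : ∑ j, (L * γ * R * (∫ ω, (∑ i with b i = j, g i * r i ω) ^ 2 ∂μ) / 6 +
      (∫ ω, (∑ i with b i = j, g i * r i ω) ^ 2 ∂μ) ^ 2 / 8) ≤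
      ((L * γ * R) / 6 + (L * γ * R) ^ 2 / 8) *
          (∑ j, ∫ ω, (∑ i with b i = j, g i * r i ω) ^ 2 ∂μ) := by
    rw [Finset.mul_sum]
    refine Finset.sum_le_sum fun j _ => ?_
    have h1 := mul_le_mul_of_nonneg_right (hW j) (hW0 j)
    nlinarith
  linarith

end Vale.Agent.P153.Gau
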