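import Vale.Agent.P153.Gau.D4
import Vale.Agent.P153.CLT.Mart
import Mathlib.Probability.Kernel.Condexp

/-! The conditional characteristic function of a row, given a decoupling of blocks. -/

namespace Vale.Agent.P153.Gau

open MeasureTheory Complex Set ProbabilityTheory
open Vale.Agent.P153.CLT (ei)

variable {Ω : Type*} {m mΩ : MeasurableSpace Ω} {μ : Measure Ω}

theorem integrable_ei [IsProbabilityMeasure μ] {S : Ω → ℝ} (hS : Measurable S) :
    Integrable (fun ω => ei (S ω)) μ :=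
  Integrable.of_bound (C := 1) (Vale.Agent.P153.CLT.measurable_ei.comp hS).aestronglyMeasurable
    (Filter.Eventually.of_forall fun _ => (Vale.Agent.P153.CLT.norm_ei _).le)

variable [StandardBorelSpace Ω]

/-- **Row lemma, conditional form (pointwise).** -/
theorem row_cond [IsProbabilityMeasure μ] (hm : m ≤ mΩ) {β : Type*}
    [Fintype β] (S : β → Ω → ℝ) (hS : ∀ j, Measurable (S j)) {M : ℝ} (hM : ∀ j ω, |S j ω| ≤ M)
    (h0 : ∀ j, μ[S j | m] =ᵐ[μ] 0) (N : Ω → ℝ)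
    (hN : ∀ᵐ ω ∂μ, ‖(μ[fun ω => ei (∑ j, S j ω) | m]) ω -
      ∏ j, (μ[fun ω => ei (S j ω) | m]) ω‖ ≤ N ω)
    (V : Ω → ℝ) (hV : ∀ ω, 0 ≤ V ω) :
    ∀ᵐ ω ∂μ, ‖(μ[fun ω => ei (∑ j, S j ω) | m]) ω - ((Real.exp (-(V ω) / 2) : ℝ) : ℂ)‖ ≤
      N ω + (M / 6 + M ^ 2 / 8) * ∑ j, (μ[fun ω => S j ω ^ 2 | m]) ω +
        |∑ j, (μ[fun ω => S j ω ^ 2 | m]) ω - V ω| / 2 := by
  have iS : ∀ j, Integrable (S j) μ := fun j =>
    Integrable.of_bound (hS j).aestronglyMeasurable M (Filter.Eventually.of_forall (hM j))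
  have iS2 : ∀ j, Integrable (fun ω => S j ω ^ 2) μ := fun j =>
    Integrable.of_bound ((hS j).pow_const 2).aestronglyMeasurable (M ^ 2)
      (Filter.Eventually.of_forall fun ω => by
        rw [norm_pow, Real.norm_eq_abs]; exact pow_le_pow_left₀ (abs_nonneg _) (hM j ω) 2)
  have a1 := condExp_ae_eq_integral_condExpKernel hm
    (integrable_ei (μ := μ) (Finset.measurable_fun_sum Finset.univ fun j _ => hS j))
  have a2 : ∀ᵐ ω ∂μ, ∀ j, (μ[fun ω => ei (S j ω) | m]) ω =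
      ∫ y, ei (S j y) ∂condExpKernel μ m ω :=
    ae_all_iff.2 fun j => condExp_ae_eq_integral_condExpKernel hm (integrable_ei (hS j))
  have a3 : ∀ᵐ ω ∂μ, ∀ j, (μ[fun ω => S j ω ^ 2 | m]) ω =
      ∫ y, S j y ^ 2 ∂condExpKernel μ m ω :=
    ae_all_iff.2 fun j => condExp_ae_eq_integral_condExpKernel hm (iS2 j)
  have a4 : ∀ᵐ ω ∂μ, ∀ j, ∫ y, S j y ∂condExpKernel μ m ω = 0 := by
    refine ae_all_iff.2 fun j => ?_
    filter_upwards [condExp_ae_eq_integral_condExpKernel hm (iS j), h0 j] with ω h1 h2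
    rw [← h1, h2]
    rfl
  filter_upwards [a1, a2, a3, a4, hN] with ω h1 h2 h3 h4 h5
  rw [h1] at h5 ⊢
  simp only [h2] at h5
  simp only [h3]
  have hmain := blocks_charFun (μ := condExpKernel μ m ω) (S := S)
    (fun j => (hS j).aestronglyMeasurable) (M := M)
    (fun j => Filter.Eventually.of_forall (hM j)) h4 (N := N ω) (by simpa [ei] using h5)
    (hV ω)
  have hM0 : ∀ j, (∫ y, S j y ^ 2 ∂condExpKernel μ m ω) ≤ M ^ 2 := by
    intro j
    have h2 := integral_mono_of_nonneg (μ := condExpKernel μ m ω)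
      (Filter.Eventually.of_forall fun ω => sq_nonneg (S j ω))
      (integrable_const (M ^ 2))
      (Filter.Eventually.of_forall fun y => sq_le_sq' (by linarith [(abs_le.1 (hM j y)).1])
        (abs_le.1 (hM j y)).2)
    simpa using h2
  have hW0 : ∀ j, 0 ≤ (∫ y, S j y ^ 2 ∂condExpKernel μ m ω) := fun j =>
    integral_nonneg fun y => sq_nonneg _
  have hs : ∑ j, (M * (∫ y, S j y ^ 2 ∂condExpKernel μ m ω) / 6 +
      (∫ y, S j y ^ 2 ∂condExpKernel μ m ω) ^ 2 / 8) ≤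
      (M / 6 + M ^ 2 / 8) * (∑ j, ∫ y, S j y ^ 2 ∂condExpKernel μ m ω) := by
    rw [Finset.mul_sum]
    refine Finset.sum_le_sum fun j _ => ?_
    have h1 := mul_le_mul_of_nonneg_right (hM0 j) (hW0 j)
    nlinarith
  have e1 : (-(V ω) / 2) = -(V ω / 2) := by ring
  rw [e1]
  have e2 : (∫ y, ei (∑ j, S j y) ∂condExpKernel μ m ω) =
      ∫ y, exp (I * (∑ j, S j y : ℝ)) ∂condExpKernel μ m ω := rfl
  rw [e2]
  linarith

/-- **Row lemma, conditional form (integrated).** -/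
theorem row_cond_L1 [IsProbabilityMeasure μ] (hm : m ≤ mΩ) {β : Type*}
    [Fintype β] (S : β → Ω → ℝ) (hS : ∀ j, Measurable (S j)) {M : ℝ} (hM : ∀ j ω, |S j ω| ≤ M)
    (h0 : ∀ j, μ[S j | m] =ᵐ[μ] 0) (N : Ω → ℝ) (hNi : Integrable N μ)
    (hN : ∀ᵐ ω ∂μ, ‖(μ[fun ω => ei (∑ j, S j ω) | m]) ω -
      ∏ j, (μ[fun ω => ei (S j ω) | m]) ω‖ ≤ N ω)
    (V : Ω → ℝ) (hV : ∀ ω, 0 ≤ V ω) (hVi : Integrable V μ) :
    ∫ ω, ‖(μ[fun ω => ei (∑ j, S j ω) | m]) ω - ((Real.exp (-(V ω) / 2) : ℝ) : ℂ)‖ ∂μ ≤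
      ∫ ω, N ω ∂μ + (M / 6 + M ^ 2 / 8) * ∑ j, ∫ ω, S j ω ^ 2 ∂μ +
        (∫ ω, |∑ j, (μ[fun ω => S j ω ^ 2 | m]) ω - V ω| ∂μ) / 2 := by
  have iW : Integrable (fun ω => ∑ j, (μ[fun ω => S j ω ^ 2 | m]) ω) μ :=
    integrable_finsetSum _ fun j _ => integrable_condExp
  have iA : Integrable (fun ω => |∑ j, (μ[fun ω => S j ω ^ 2 | m]) ω - V ω|) μ := (iW.sub hVi).abs
  have h := row_cond hm S hS hM h0 N hN V hV
  have i1 : Integrable (fun ω => (M / 6 + M ^ 2 / 8) * ∑ j, (μ[fun ω => S j ω ^ 2 | m]) ω) μ :=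
    iW.const_mul _
  have i2 : Integrable (fun ω => |∑ j, (μ[fun ω => S j ω ^ 2 | m]) ω - V ω| / 2) μ := iA.div_const 2
  have i3 : Integrable (fun ω => N ω + (M / 6 + M ^ 2 / 8) *
      ∑ j, (μ[fun ω => S j ω ^ 2 | m]) ω) μ := hNi.add i1
  have i4 : Integrable (fun ω => N ω + (M / 6 + M ^ 2 / 8) *
      ∑ j, (μ[fun ω => S j ω ^ 2 | m]) ω +
        |∑ j, (μ[fun ω => S j ω ^ 2 | m]) ω - V ω| / 2) μ := i3.add i2
  have hle := integral_mono_of_nonneg (μ := μ)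
    (Filter.Eventually.of_forall fun ω => norm_nonneg _) i4 h
  refine hle.trans (le_of_eq ?_)
  rw [integral_add i3 i2, integral_add hNi i1, integral_const_mul, integral_div,
    integral_finsetSum _ fun j _ => integrable_condExp]
  congr 3
  refine Finset.sum_congr rfl fun j _ => ?_
  exact integral_condExp hm

end Vale.Agent.P153.Gau
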