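import Vale.Agent.P153.Gau.D4c

/-! The martingale central limit theorem for rows of almost decoupled blocks, with squares instead
of conditional variances. -/

namespace Vale.Agent.P153.Gau

open MeasureTheory Set ProbabilityTheory Finset
open Vale.Agent.P153.CLT (ei)

section
variable {Ω : Type*} {mΩ : MeasurableSpace Ω} {μ : Measure Ω}

theorem integral_mul_condExp_real [IsProbabilityMeasure μ] {m : MeasurableSpace Ω} (hm : m ≤ mΩ)
    {Z f : Ω → ℝ} (hZ : StronglyMeasurable[m] Z) (C : ℝ) (hZC : ∀ ω, |Z ω| ≤ C)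
    (hf : Integrable f μ) (h0 : μ[f | m] =ᵐ[μ] 0) : ∫ ω, Z ω * f ω ∂μ = 0 := by
  have h1 := condExp_stronglyMeasurable_mul_of_bound (μ := μ) hm hZ hf C
    (ae_of_all _ hZC)
  have h2 : ∫ ω, (Z * f) ω ∂μ = ∫ ω, (μ[Z * f | m]) ω ∂μ := (integral_condExp hm).symm
  have h3 : ∫ ω, (μ[Z * f | m]) ω ∂μ = ∫ _, (0 : ℝ) ∂μ := by
    refine integral_congr_ae ?_
    filter_upwards [h1, h0] with ω e1 e2
    rw [e1, Pi.mul_apply, e2]
    simp
  simpa [h3] using h2

/-- second moment of a sum of bounded martingale differences -/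
theorem sq_sum_le [IsProbabilityMeasure μ] (F : ℕ → MeasurableSpace Ω) (hF : ∀ j, F j ≤ mΩ)
    (hmono : Monotone F) (D : ℕ → Ω → ℝ) (hD : ∀ j, Measurable[F (j + 1)] (D j)) (B : ℕ → ℝ)
    (hB : ∀ j ω, |D j ω| ≤ B j) (h0 : ∀ j, μ[D j | F j] =ᵐ[μ] 0) (J : ℕ) :
    ∫ ω, (∑ j ∈ range J, D j ω) ^ 2 ∂μ ≤ ∑ j ∈ range J, B j ^ 2 := by
  have hDm : ∀ j, Measurable[mΩ] (D j) := fun j => (hD j).mono (hF _) le_rfl
  have iD : ∀ j, Integrable (D j) μ := fun j =>
    Integrable.of_bound (hDm j).aestronglyMeasurable (B j) (ae_of_all _ (hB j))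
  have hSb : ∀ J ω, |∑ j ∈ range J, D j ω| ≤ ∑ j ∈ range J, B j := fun J ω =>
    (abs_sum_le_sum_abs _ _).trans (sum_le_sum fun j _ => hB j ω)
  induction J with
  | zero => simp
  | succ J ih =>
    have hSm : Measurable[F J] (fun ω => ∑ j ∈ range J, D j ω) := by
      refine Finset.measurable_fun_sum _ fun i hi => ?_
      exact (hD i).mono (hmono (by have := mem_range.1 hi; omega)) le_rfl
    have hSm' : Measurable[mΩ] (fun ω => ∑ j ∈ range J, D j ω) := hSm.mono (hF _) le_rfl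
    have i1 : Integrable (fun ω => (∑ j ∈ range J, D j ω) ^ 2) μ :=
      Integrable.of_bound (hSm'.pow_const 2).aestronglyMeasurable ((∑ j ∈ range J, B j) ^ 2)
        (ae_of_all _ fun ω => by
          rw [norm_pow, Real.norm_eq_abs]
          exact pow_le_pow_left₀ (abs_nonneg _) (hSb J ω) 2)
    have i2 : Integrable (fun ω => (∑ j ∈ range J, D j ω) * D J ω) μ :=
      (iD J).bdd_mul hSm'.aestronglyMeasurable (ae_of_all _ (hSb J))
    have i3 : Integrable (fun ω => D J ω ^ 2) μ :=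
      Integrable.of_bound ((hDm J).pow_const 2).aestronglyMeasurable (B J ^ 2)
        (ae_of_all _ fun ω => by
          rw [norm_pow, Real.norm_eq_abs]
          exact pow_le_pow_left₀ (abs_nonneg _) (hB J ω) 2)
    have e0 : ∫ ω, (∑ j ∈ range J, D j ω) * D J ω ∂μ = 0 :=
      integral_mul_condExp_real (hF J) hSm.stronglyMeasurable _ (hSb J) (iD J) (h0 J)
    have e1 : ∀ ω, (∑ j ∈ range (J + 1), D j ω) ^ 2 = (∑ j ∈ range J, D j ω) ^ 2 +
        2 * ((∑ j ∈ range J, D j ω) * D J ω) + D J ω ^ 2 := by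
      intro ω
      rw [sum_range_succ]; ring
    have e2 : ∫ ω, (∑ j ∈ range (J + 1), D j ω) ^ 2 ∂μ =
        ∫ ω, (∑ j ∈ range J, D j ω) ^ 2 ∂μ + ∫ ω, D J ω ^ 2 ∂μ := by
      simp only [e1]
      have i12 : Integrable (fun ω => (∑ j ∈ range J, D j ω) ^ 2 +
        2 * ((∑ j ∈ range J, D j ω) * D J ω)) μ := i1.add (i2.const_mul 2)
      rw [integral_add i12 i3, integral_add i1 (i2.const_mul 2), integral_const_mul, e0]
      ring
    have e3 : ∫ ω, D J ω ^ 2 ∂μ ≤ B J ^ 2 := by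
      have h2 := integral_mono_of_nonneg (μ := μ) (ae_of_all _ fun ω => sq_nonneg (D J ω))
        (integrable_const (B J ^ 2))
        (ae_of_all _ fun y => sq_le_sq' (by linarith [(abs_le.1 (hB J y)).1])
          (abs_le.1 (hB J y)).2)
      simpa using h2
    rw [e2, sum_range_succ]
    linarith

theorem integral_abs_le_sqrt [IsProbabilityMeasure μ] {S : Ω → ℝ} (hS : Measurable S) (C : ℝ)
    (hC : ∀ ω, |S ω| ≤ C) : ∫ ω, |S ω| ∂μ ≤ √(∫ ω, S ω ^ 2 ∂μ) := by
  have i1 : Integrable (fun ω => |S ω|) μ :=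
    (Integrable.of_bound hS.aestronglyMeasurable C (ae_of_all _ hC)).abs
  have i2 : Integrable (fun ω => S ω ^ 2) μ :=
    Integrable.of_bound (hS.pow_const 2).aestronglyMeasurable (C ^ 2)
      (ae_of_all _ fun ω => by
        rw [norm_pow, Real.norm_eq_abs]
        exact pow_le_pow_left₀ (abs_nonneg _) (hC ω) 2)
  refine Real.le_sqrt_of_sq_le ?_
  set t := ∫ ω, |S ω| ∂μ with ht
  have h0 : 0 ≤ ∫ ω, (|S ω| - t) ^ 2 ∂μ := integral_nonneg fun ω => sq_nonneg _
  have e1 : ∫ ω, (|S ω| - t) ^ 2 ∂μ = ∫ ω, S ω ^ 2 ∂μ - t ^ 2 := by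
    have e2 : ∀ ω, (|S ω| - t) ^ 2 = S ω ^ 2 - 2 * t * |S ω| + t ^ 2 := by
      intro ω
      rw [← sq_abs (S ω)]; ring
    simp only [e2]
    have i3 : Integrable (fun ω => S ω ^ 2 - 2 * t * |S ω|) μ := i2.sub (i1.const_mul _)
    rw [integral_add i3 (integrable_const _), integral_sub i2 (i1.const_mul _),
      integral_const_mul, ← ht]
    simp
    ring
  linarith

end

variable {Ω : Type*} {mΩ : MeasurableSpace Ω} [StandardBorelSpace Ω] {μ : Measure Ω}

/-- **Central limit theorem with squares.** Rows `j < J`, blocks `b`; the block variables `Y j b`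
are bounded by `η` and centred given the past `F j`, almost decoupled given the past (error `N j`),
and the sum of all squares is close to `s`. -/
theorem clt_squares [IsProbabilityMeasure μ] (F : ℕ → MeasurableSpace Ω) (hF : ∀ j, F j ≤ mΩ)
    (hmono : Monotone F) {β : Type*} [Fintype β] (Y : ℕ → β → Ω → ℝ)
    (hY : ∀ j b, Measurable[F (j + 1)] (Y j b)) {η : ℝ} (hη : ∀ j b ω, |Y j b ω| ≤ η)
    (h0 : ∀ j b, μ[Y j b | F j] =ᵐ[μ] 0) (B : ℕ → ℝ) (hB : ∀ j ω, ∑ b, Y j b ω ^ 2 ≤ B j)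
    (N : ℕ → Ω → ℝ) (hNi : ∀ j, Integrable (N j) μ)
    (hN : ∀ j, ∀ᵐ ω ∂μ, ‖(μ[fun ω => ei (∑ b, Y j b ω) | F j]) ω -
      ∏ b, (μ[fun ω => ei (Y j b ω) | F j]) ω‖ ≤ N j ω) (s : ℝ) (hs : 0 ≤ s) (J : ℕ) :
    ‖∫ ω, ei (∑ j ∈ range J, ∑ b, Y j b ω) ∂μ - ((Real.exp (-s / 2) : ℝ) : ℂ)‖ ≤
      2 * ∑ j ∈ range J, (∫ ω, N j ω ∂μ + (η / 6 + η ^ 2 / 8) * ∑ b, ∫ ω, Y j b ω ^ 2 ∂μ) +
      (s + 4) * (√(∑ j ∈ range J, B j ^ 2) +
        ∫ ω, |∑ j ∈ range J, ∑ b, Y j b ω ^ 2 - s| ∂μ) := by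
  have hYm : ∀ j b, Measurable[mΩ] (Y j b) := fun j b => (hY j b).mono (hF _) le_rfl
  have hB0 : ∀ j, 0 ≤ B j := by
    intro j
    obtain ⟨ω⟩ : Nonempty Ω := by
      by_contra h
      rw [not_nonempty_iff] at h
      have h1 := measure_univ (μ := μ)
      rw [Set.univ_eq_empty_iff.2 h, measure_empty] at h1
      exact zero_ne_one h1
    exact (Finset.sum_nonneg fun b _ => sq_nonneg (Y j b ω)).trans (hB j ω)
  have iY2 : ∀ j b, Integrable (fun ω => Y j b ω ^ 2) μ := fun j b =>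
    Integrable.of_bound ((hYm j b).pow_const 2).aestronglyMeasurable (η ^ 2)
      (ae_of_all _ fun ω => by
        rw [norm_pow, Real.norm_eq_abs]; exact pow_le_pow_left₀ (abs_nonneg _) (hη j b ω) 2)
  have hQm : ∀ j, Measurable[F (j + 1)] (fun ω => ∑ b, Y j b ω ^ 2) := fun j =>
    Finset.measurable_fun_sum _ fun b _ => (hY j b).pow_const 2
  have iQ : ∀ j, Integrable (fun ω => ∑ b, Y j b ω ^ 2) μ := fun j =>
    integrable_finsetSum _ fun b _ => iY2 j b
  -- the conditional variances, truncated so that they are bounded everywhere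
  set V : ℕ → Ω → ℝ := fun j ω =>
    min (max ((μ[fun ω => ∑ b, Y j b ω ^ 2 | F j]) ω) 0) (B j) with hVdef
  have hVm : ∀ j, Measurable[F j] (V j) := fun j =>
    ((stronglyMeasurable_condExp.measurable).max measurable_const).min measurable_const
  have hV0 : ∀ j ω, 0 ≤ V j ω := fun j ω => le_min (le_max_right _ _) (hB0 j)
  have hVB : ∀ j ω, V j ω ≤ B j := fun j ω => min_le_right _ _
  have hVae : ∀ j, V j =ᵐ[μ] μ[fun ω => ∑ b, Y j b ω ^ 2 | F j] := by
    intro j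
    have h1 : 0 ≤ᵐ[μ] μ[fun ω => ∑ b, Y j b ω ^ 2 | F j] :=
      condExp_nonneg (ae_of_all _ fun ω => Finset.sum_nonneg fun b _ => sq_nonneg (Y j b ω))
    have h2 : μ[fun ω => ∑ b, Y j b ω ^ 2 | F j] ≤ᵐ[μ] μ[fun _ => B j | F j] :=
      condExp_mono (iQ j) (integrable_const _) (ae_of_all _ (hB j))
    rw [condExp_const (hF j)] at h2
    filter_upwards [h1, h2] with ω e1 e2
    have e1' : (0 : ℝ) ≤ (μ[fun ω => ∑ b, Y j b ω ^ 2 | F j]) ω := e1
    simp only [hVdef]
    rw [max_eq_left e1', min_eq_left e2]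
  have hVi : ∀ j, Integrable (V j) μ := fun j =>
    Integrable.of_bound ((hVm j).mono (hF j) le_rfl).aestronglyMeasurable (B j)
      (ae_of_all _ fun ω => by
        rw [Real.norm_eq_abs, abs_of_nonneg (hV0 j ω)]; exact hVB j ω)
  have hsumY : ∀ j, Measurable[F (j + 1)] (fun ω => ∑ b, Y j b ω) := fun j =>
    Finset.measurable_fun_sum _ fun b _ => hY j b
  have hmart := Vale.Agent.P153.CLT.mart_clt (μ := μ) F hF hmono (fun j ω => ∑ b, Y j b ω) V hsumY
    hVm hV0 hVi s hs J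
  refine hmart.trans (add_le_add ?_ ?_)
  · refine mul_le_mul_of_nonneg_left (Finset.sum_le_sum fun j _ => ?_) (by norm_num)
    have h1 := row_cond_L1 (μ := μ) (hF j) (Y j) (hYm j) (hη j) (h0 j) (N j) (hNi j) (hN j)
      (V j) (hV0 j) (hVi j)
    have h2 : ∫ ω, |∑ b, (μ[fun ω => Y j b ω ^ 2 | F j]) ω - V j ω| ∂μ = 0 := by
      rw [← integral_zero Ω ℝ (μ := μ)]
      refine integral_congr_ae ?_
      have h3 : μ[fun ω => ∑ b, Y j b ω ^ 2 | F j] =ᵐ[μ]
          fun ω => ∑ b, (μ[fun ω => Y j b ω ^ 2 | F j]) ω := by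
        have h4 := condExp_finsetSum (μ := μ) (s := Finset.univ) (f := fun b ω => Y j b ω ^ 2)
          (fun b _ => iY2 j b) (F j)
        have e5 : (∑ b, fun ω => Y j b ω ^ 2) = fun ω => ∑ b, Y j b ω ^ 2 := by
          ext ω; simp
        rw [e5] at h4
        filter_upwards [h4] with ω e
        rw [e, Finset.sum_apply]
      filter_upwards [hVae j, h3] with ω e1 e2
      rw [e1, e2, sub_self, abs_zero]
    rw [h2] at h1
    linarith
  · refine mul_le_mul_of_nonneg_left ?_ (by linarith)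
    set D : ℕ → Ω → ℝ := fun j ω => V j ω - ∑ b, Y j b ω ^ 2 with hDdef
    have hDm : ∀ j, Measurable[F (j + 1)] (D j) := fun j =>
      ((hVm j).mono (hmono (Nat.le_succ j)) le_rfl).sub (hQm j)
    have hDB : ∀ j ω, |D j ω| ≤ B j := by
      intro j ω
      rw [abs_le]
      constructor
      · have := hV0 j ω; have := hB j ω; simp only [hDdef]; linarith
      · have := hVB j ω
        have := Finset.sum_nonneg fun b (_ : b ∈ Finset.univ) => sq_nonneg (Y j b ω)
        simp only [hDdef]; linarith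
    have hD0 : ∀ j, μ[D j | F j] =ᵐ[μ] 0 := by
      intro j
      have h1 := condExp_sub (μ := μ) (hVi j) (iQ j) (F j)
      have h2 : μ[V j | F j] = V j :=
        condExp_of_stronglyMeasurable (hF j) (hVm j).stronglyMeasurable (hVi j)
      have e3 : D j = V j - fun ω => ∑ b, Y j b ω ^ 2 := rfl
      rw [e3]
      filter_upwards [h1, hVae j] with ω e1 e2
      rw [e1, Pi.sub_apply, h2, e2, sub_self]
      rfl
    have hDmΩ : ∀ j, Measurable[mΩ] (D j) := fun j => (hDm j).mono (hF _) le_rfl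
    have hSm : Measurable (fun ω => ∑ j ∈ range J, D j ω) :=
      Finset.measurable_fun_sum _ fun j _ => hDmΩ j
    have hSb : ∀ ω, |∑ j ∈ range J, D j ω| ≤ ∑ j ∈ range J, B j := fun ω =>
      (abs_sum_le_sum_abs _ _).trans (sum_le_sum fun j _ => hDB j ω)
    have k1 : ∫ ω, |∑ j ∈ range J, D j ω| ∂μ ≤ √(∑ j ∈ range J, B j ^ 2) :=
      (integral_abs_le_sqrt hSm _ hSb).trans
        (Real.sqrt_le_sqrt (sq_sum_le F hF hmono D hDm B hDB hD0 J))
    have iD : Integrable (fun ω => |∑ j ∈ range J, D j ω|) μ :=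
      (Integrable.of_bound hSm.aestronglyMeasurable _ (ae_of_all _ hSb)).abs
    have iQs : Integrable (fun ω => |∑ j ∈ range J, ∑ b, Y j b ω ^ 2 - s|) μ :=
      ((integrable_finsetSum _ fun j _ => iQ j).sub (integrable_const s)).abs
    have k2 : ∫ ω, |∑ j ∈ range J, V j ω - s| ∂μ ≤
        ∫ ω, (|∑ j ∈ range J, D j ω| + |∑ j ∈ range J, ∑ b, Y j b ω ^ 2 - s|) ∂μ := by
      refine integral_mono_of_nonneg (ae_of_all _ fun ω => abs_nonneg _) (iD.add iQs)
        (ae_of_all _ fun ω => ?_)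
      have e1 : ∑ j ∈ range J, V j ω - s =
          ∑ j ∈ range J, D j ω + (∑ j ∈ range J, ∑ b, Y j b ω ^ 2 - s) := by
        simp only [hDdef, Finset.sum_sub_distrib]; ring
      simp only
      rw [e1]
      exact abs_add_le _ _
    rw [integral_add iD iQs] at k2
    linarith

end Vale.Agent.P153.Gau
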